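import Vale.Agent.Lib.P334.Greedy

/-! # P334: set systems as k-median instances of aspect ratio `D ≤ 3` -/

namespace Vale.Agent.P334

variable {E I : Type} (r : E → I → Prop) (D : ℝ)

open Classical in
/-- distances: `1` from an element to a set containing it, `D` to the other sets, `2` between
two different elements and between two different sets -/
noncomputable def dd : E ⊕ I → E ⊕ I → ℝ
  | Sum.inl e, Sum.inl e' => if e = e' then 0 else 2
  | Sum.inr i, Sum.inr i' => if i = i' then 0 else 2
  | Sum.inl e, Sum.inr i => if r e i then 1 else D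
  | Sum.inr i, Sum.inl e => if r e i then 1 else D

/-- the metric space -/
noncomputable abbrev coverSpace (h1 : 1 ≤ D) (h3 : D ≤ 3) : MetricSpace (E ⊕ I) where
  dist := dd r D
  dist_self := by
    rintro (e | i) <;> simp [dd]
  dist_comm := by
    rintro (e | i) (e' | i') <;> simp only [dd] <;> split_ifs <;>
      first | rfl | (exfalso; simp_all)
  dist_triangle := by
    rintro (e | i) (e' | i') (e'' | i'') <;> simp only [dd] <;> split_ifs <;>
      first | linarith | (exfalso; simp_all)
  eq_of_dist_eq_zero := by
    rintro (e | i) (e' | i') h <;> simp only [dd] at h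
    · split_ifs at h with h'
      · rw [h']
      · norm_num at h
    · split_ifs at h <;> linarith
    · split_ifs at h <;> linarith
    · split_ifs at h with h'
      · rw [h']
      · norm_num at h

open Classical in
/-- The cost in the cover space: every client pays `1`, the uncovered ones `D - 1` more. -/
theorem cost_cover [Fintype E] (h1 : 1 ≤ D) (h3 : D ≤ 3) (S : Finset I) (hS : S.Nonempty) :
    @cost (E ⊕ I) (coverSpace r D h1 h3) (Finset.univ.map Function.Embedding.inl)
      (S.map Function.Embedding.inr) =
      Fintype.card E + (D - 1) * (Finset.univ.filter fun e : E => ∀ i ∈ S, ¬ r e i).card := by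
  let _ := coverSpace r D h1 h3
  unfold cost
  rw [Finset.sum_map]
  have hne : (S.map (Function.Embedding.inr : I ↪ E ⊕ I)).Nonempty := hS.map
  have hd : ∀ (e : E) (i : I), dist (Sum.inl e : E ⊕ I) (Sum.inr i) = if r e i then 1 else D :=
    fun e i => rfl
  have key : ∀ e : E, Metric.infDist (Sum.inl e : E ⊕ I)
      ((S.map (Function.Embedding.inr : I ↪ E ⊕ I) : Finset (E ⊕ I)) : Set (E ⊕ I)) =
      1 + (D - 1) * (if ∀ i ∈ S, ¬ r e i then 1 else 0) := by
    intro e
    obtain ⟨x, hx, hdx⟩ := exists_infDist_eq hne (Sum.inl e)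
    obtain ⟨i, hi, rfl⟩ := Finset.mem_map.1 hx
    have hdx' : Metric.infDist (Sum.inl e : E ⊕ I)
      ((S.map (Function.Embedding.inr : I ↪ E ⊕ I) : Finset (E ⊕ I)) : Set (E ⊕ I)) =
      if r e i then 1 else D := by rw [hdx]; exact hd e i
    by_cases hcov : ∀ i ∈ S, ¬ r e i
    · rw [hdx', if_neg (hcov i hi), if_pos hcov]
      ring
    · rw [if_neg hcov]
      push Not at hcov
      obtain ⟨i', hi', hr⟩ := hcov
      have hle : Metric.infDist (Sum.inl e : E ⊕ I)
          ((S.map (Function.Embedding.inr : I ↪ E ⊕ I) : Finset (E ⊕ I)) : Set (E ⊕ I)) ≤ 1 := by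
        have h4 := Metric.infDist_le_dist_of_mem (x := (Sum.inl e : E ⊕ I))
          (y := (Sum.inr i' : E ⊕ I))
          (s := ((S.map (Function.Embedding.inr : I ↪ E ⊕ I) : Finset (E ⊕ I)) : Set (E ⊕ I)))
          (by simpa using hi')
        rw [hd, if_pos hr] at h4
        exact h4
      have hge : 1 ≤ Metric.infDist (Sum.inl e : E ⊕ I)
          ((S.map (Function.Embedding.inr : I ↪ E ⊕ I) : Finset (E ⊕ I)) : Set (E ⊕ I)) := by
        rw [hdx']
        split_ifs
        · exact le_rfl
        · exact h1
      rw [mul_zero, add_zero]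
      exact le_antisymm hle hge
  change ∑ e : E, Metric.infDist (Sum.inl e : E ⊕ I)
      ((S.map (Function.Embedding.inr : I ↪ E ⊕ I) : Finset (E ⊕ I)) : Set (E ⊕ I)) = _
  simp only [key]
  rw [Finset.sum_add_distrib, ← Finset.mul_sum, Finset.sum_boole, Finset.sum_const,
    Finset.card_univ, nsmul_eq_mul, mul_one]

end Vale.Agent.P334
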