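import Mathlib

/-! # P334: greedy k-median on instances of bounded aspect ratio -/

namespace Vale.Agent.P334

open Finset

variable {X : Type*} [MetricSpace X]

/-- the cost of the set `S` of open facilities for the set `J` of clients: the sum over the clients
of the distance to `S` -/
noncomputable def cost (J S : Finset X) : ℝ := ∑ j ∈ J, Metric.infDist j (S : Set X)

open Classical in
/-- `S` is a result of `m` rounds of the greedy algorithm on clients `J`, facilities `F`: in each
round a facility is opened for which the cost after the round is least. -/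
inductive Greedy (J F : Finset X) : ℕ → Finset X → Prop
  | first (f : X) : f ∈ F → (∀ g ∈ F, cost J {f} ≤ cost J {g}) → Greedy J F 1 {f}
  | next (m : ℕ) (S : Finset X) (f : X) : Greedy J F m S → f ∈ F →
      (∀ g ∈ F, cost J (insert f S) ≤ cost J (insert g S)) → Greedy J F (m + 1) (insert f S)

theorem exists_infDist_eq {S : Finset X} (hS : S.Nonempty) (j : X) :
    ∃ i ∈ S, Metric.infDist j (S : Set X) = dist j i := by
  obtain ⟨i, hi, h⟩ := S.finite_toSet.isCompact.exists_infDist_eq_dist (by simpa using hS) j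
  exact ⟨i, by simpa using hi, h⟩

open Classical in
theorem infDist_insert_le_left {S : Finset X} (hS : S.Nonempty) (o j : X) :
    Metric.infDist j ((insert o S : Finset X) : Set X) ≤ Metric.infDist j (S : Set X) := by
  apply Metric.infDist_le_infDist_of_subset
  · simp
  · simpa using hS

open Classical in
theorem infDist_insert_le_right (S : Finset X) (o j : X) :
    Metric.infDist j ((insert o S : Finset X) : Set X) ≤ dist j o :=
  Metric.infDist_le_dist_of_mem (by simp)

open Classical in
theorem sum_gain {S O : Finset X} (hS : S.Nonempty) (hO : O.Nonempty) (J : Finset X) :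
    cost J S - cost J O ≤ ∑ o ∈ O, (cost J S - cost J (insert o S)) := by
  unfold cost
  simp only [← Finset.sum_sub_distrib]
  rw [Finset.sum_comm]
  apply Finset.sum_le_sum
  intro j _
  obtain ⟨i, hi, h⟩ := exists_infDist_eq hO j
  rw [h]
  calc Metric.infDist j (S : Set X) - dist j i
      ≤ Metric.infDist j (S : Set X) - Metric.infDist j ((insert i S : Finset X) : Set X) := by
        linarith [infDist_insert_le_right S i j]
    _ ≤ ∑ o ∈ O, (Metric.infDist j (S : Set X) -
          Metric.infDist j ((insert o S : Finset X) : Set X)) := by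
        apply Finset.single_le_sum (f := fun o => Metric.infDist j (S : Set X) -
          Metric.infDist j ((insert o S : Finset X) : Set X)) _ hi
        intro o _
        linarith [infDist_insert_le_left hS o j]

theorem sum_gain_first {O : Finset X} (hO : O.Nonempty) (J : Finset X) {M : X → ℝ}
    (hM : ∀ j ∈ J, ∀ o ∈ O, dist j o ≤ M j) :
    ∑ j ∈ J, M j - cost J O ≤ ∑ o ∈ O, (∑ j ∈ J, M j - cost J {o}) := by
  unfold cost
  have h1 : ∀ S : Finset X, (∑ j ∈ J, M j - ∑ j ∈ J, Metric.infDist j (S : Set X)) =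
      ∑ j ∈ J, (M j - Metric.infDist j (S : Set X)) := by
    intro S
    rw [Finset.sum_sub_distrib]
  simp only [h1]
  rw [Finset.sum_comm]
  apply Finset.sum_le_sum
  intro j hj
  obtain ⟨i, hi, h⟩ := exists_infDist_eq hO j
  rw [h]
  have h2 : ∀ o : X, Metric.infDist j (({o} : Finset X) : Set X) = dist j o := by
    intro o
    rw [Finset.coe_singleton, Metric.infDist_singleton]
  simp only [h2]
  apply Finset.single_le_sum (f := fun o => M j - dist j o) _ hi
  intro o ho
  have := hM j hj o ho
  linarith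

theorem exists_ge_avg {ι : Type*} {O : Finset ι} (hO : O.Nonempty) (f : ι → ℝ) {c : ℝ}
    (h : c ≤ ∑ o ∈ O, f o) : ∃ o ∈ O, c / O.card ≤ f o := by
  by_contra hcon
  push Not at hcon
  have h1 : ∑ o ∈ O, f o < ∑ _o ∈ O, c / O.card := Finset.sum_lt_sum_of_nonempty hO hcon
  rw [Finset.sum_const, nsmul_eq_mul, mul_div_cancel₀] at h1
  · linarith
  · have := hO.card_pos
    positivity

theorem shrink {x y : ℝ} {p k : ℕ} (hp : 0 < p) (hpk : p ≤ k) (hxy : y ≤ x - x / p) {q : ℝ}
    (hx : x ≤ q) (hq : 0 ≤ q) : y ≤ (1 - 1 / k) * q := by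
  have hp' : (0 : ℝ) < p := by exact_mod_cast hp
  have hk' : (0 : ℝ) < k := by exact_mod_cast lt_of_lt_of_le hp hpk
  have hp1 : (1 : ℝ) ≤ p := by exact_mod_cast hp
  have hpk' : (p : ℝ) ≤ k := by exact_mod_cast hpk
  have h1 : (0 : ℝ) ≤ 1 - 1 / p := by
    rw [sub_nonneg, div_le_one hp']
    exact hp1
  have h2 : 1 - 1 / (p : ℝ) ≤ 1 - 1 / k := by
    have := one_div_le_one_div_of_le hp' hpk'
    linarith
  calc y ≤ (1 - 1 / p) * x := by rw [sub_mul, one_mul, one_div, inv_mul_eq_div]; exact hxy
    _ ≤ (1 - 1 / p) * q := mul_le_mul_of_nonneg_left hx h1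
    _ ≤ (1 - 1 / k) * q := mul_le_mul_of_nonneg_right h2 hq

theorem Greedy.nonempty {J F : Finset X} {m : ℕ} {S : Finset X} (h : Greedy J F m S) :
    S.Nonempty := by
  classical
  cases h with
  | first f _ _ => exact Finset.singleton_nonempty f
  | next m S f _ _ _ => exact Finset.insert_nonempty f S

theorem Greedy.bound {J F O : Finset X} {M : X → ℝ} {k m : ℕ} {S : Finset X}
    (h : Greedy J F m S) (hO : O.Nonempty) (hOF : O ⊆ F) (hOk : O.card ≤ k)
    (hM : ∀ j ∈ J, ∀ o ∈ O, dist j o ≤ M j) :
    cost J S - cost J O ≤ (1 - 1 / (k : ℝ)) ^ m * (∑ j ∈ J, M j - cost J O) := by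
  classical
  have hB : 0 ≤ ∑ j ∈ J, M j - cost J O := by
    unfold cost
    rw [sub_nonneg]
    apply Finset.sum_le_sum
    intro j hj
    obtain ⟨i, hi, h⟩ := exists_infDist_eq hO j
    rw [h]
    exact hM j hj i hi
  have hk1 : (0 : ℝ) ≤ 1 - 1 / k := by
    have : (1 : ℝ) ≤ k := by exact_mod_cast (hO.card_pos.trans_le hOk)
    rw [sub_nonneg, div_le_one (by linarith)]
    exact this
  induction h with
  | first f hf hmin =>
    obtain ⟨o, ho, hle⟩ := exists_ge_avg hO _ (sum_gain_first hO J hM)
    rw [pow_one]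
    apply shrink hO.card_pos hOk _ le_rfl hB
    have := hmin o (hOF ho)
    linarith
  | next m S f hS hf hmin ih =>
    obtain ⟨o, ho, hle⟩ := exists_ge_avg hO _ (sum_gain hS.nonempty hO J)
    rw [pow_succ', mul_assoc]
    apply shrink hO.card_pos hOk _ ih (mul_nonneg (pow_nonneg hk1 m) hB)
    have := hmin o (hOF ho)
    linarith

theorem Greedy.feasible {J F : Finset X} {m : ℕ} {S : Finset X} (h : Greedy J F m S) :
    S ⊆ F ∧ 1 ≤ S.card ∧ S.card ≤ m := by
  classical
  refine ⟨?_, h.nonempty.card_pos, ?_⟩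
  · induction h with
    | first f hf _ => exact Finset.singleton_subset_iff.2 hf
    | next m S f _ hf _ ih => exact Finset.insert_subset hf ih
  · induction h with
    | first f hf _ => simp
    | next m S f _ hf _ ih =>
      have := Finset.card_insert_le f S
      omega

theorem Greedy.exists {J F : Finset X} (hF : F.Nonempty) {k : ℕ} (hk : 1 ≤ k) :
    ∃ S, Greedy J F k S := by
  classical
  induction k, hk using Nat.le_induction with
  | base =>
    obtain ⟨f, hf, h⟩ := Finset.exists_min_image F (fun g => cost J {g}) hF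
    exact ⟨_, Greedy.first f hf h⟩
  | succ k _ ih =>
    obtain ⟨S, hS⟩ := ih
    obtain ⟨f, hf, h⟩ := Finset.exists_min_image F (fun g => cost J (insert g S)) hF
    exact ⟨_, Greedy.next k S f hS hf h⟩

/-- **Greedy, general form.** -/
theorem greedy_general {J F O : Finset X} {M : X → ℝ} (hM : ∀ j ∈ J, ∀ i ∈ F, dist j i ≤ M j)
    {k : ℕ} {S : Finset X} (h : Greedy J F k S) (hO : O.Nonempty) (hOF : O ⊆ F)
    (hOk : O.card ≤ k) :
    cost J S ≤ (1 - Real.exp (-1)) * cost J O + Real.exp (-1) * ∑ j ∈ J, M j := by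
  have hb := h.bound hO hOF hOk (M := M) fun j hj o ho => hM j hj o (hOF ho)
  have hk : (1 : ℝ) ≤ k := by exact_mod_cast (hO.card_pos.trans_le hOk)
  have hexp : (1 - 1 / (k : ℝ)) ^ k ≤ Real.exp (-1) := Real.one_sub_div_pow_le_exp_neg hk
  have hB : 0 ≤ ∑ j ∈ J, M j - cost J O := by
    unfold cost
    rw [sub_nonneg]
    apply Finset.sum_le_sum
    intro j hj
    obtain ⟨i, hi, h⟩ := exists_infDist_eq hO j
    rw [h]
    exact hM j hj i (hOF hi)
  have h2 := mul_le_mul_of_nonneg_right hexp hB
  linarith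

/-- **Greedy, bounded aspect ratio.** -/
theorem greedy_ratio {J F O : Finset X} {a D : ℝ} (hD : 1 ≤ D)
    (hdist : ∀ j ∈ J, ∀ i ∈ F, a ≤ dist j i ∧ dist j i ≤ D * a) {k : ℕ} {S : Finset X}
    (h : Greedy J F k S) (hO : O.Nonempty) (hOF : O ⊆ F) (hOk : O.card ≤ k) :
    cost J S ≤ (1 + (D - 1) / Real.exp 1) * cost J O := by
  have hb := greedy_general (M := fun _ => D * a) (fun j hj i hi => (hdist j hj i hi).2) h hO hOF
    hOk
  have hlow : J.card * a ≤ cost J O := by
    unfold cost
    rw [← nsmul_eq_mul, ← Finset.sum_const]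
    apply Finset.sum_le_sum
    intro j hj
    obtain ⟨i, hi, h⟩ := exists_infDist_eq hO j
    rw [h]
    exact (hdist j hj i (hOF hi)).1
  rw [Finset.sum_const, nsmul_eq_mul] at hb
  have h1 : J.card * (D * a) ≤ D * cost J O := by
    have := mul_le_mul_of_nonneg_left hlow (by linarith : (0 : ℝ) ≤ D)
    linarith
  have h2 := mul_le_mul_of_nonneg_left h1 (Real.exp_pos (-1)).le
  have h3 : (D - 1) / Real.exp 1 = (D - 1) * Real.exp (-1) := by
    rw [Real.exp_neg, div_eq_mul_inv]
  rw [h3]
  linarith

end Vale.Agent.P334
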